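import Crest.Agent.R345.Kraus

/-! From a pair of Kraus families with enough product functionals in the kernel to the two
counterexamples. -/

set_option autoImplicit false
set_option linter.unusedSectionVars false

namespace Crest.Agent.R345

open Crest.Quantum Matrix
open scoped ComplexOrder Kronecker

section shift
open scoped MatrixOrder Matrix.Norms.L2Operator

theorem exists_shift_factor {n : Type*} [Fintype n] [DecidableEq n] (P : Matrix n n ℂ)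
    (hP : P.IsHermitian) :
    ∃ N : ℝ, 0 < N ∧ ∃ B : Matrix n n ℂ, (N : ℂ) • (1 : Matrix n n ℂ) - P = Bᴴ * B := by
  have h1 : P ≤ algebraMap ℝ _ ‖P‖ := IsSelfAdjoint.le_algebraMap_norm_self hP
  refine ⟨‖P‖ + 1, by positivity, ?_⟩
  have h2 : (0 : Matrix n n ℂ) ≤ ((‖P‖ + 1 : ℝ) : ℂ) • (1 : Matrix n n ℂ) - P := by
    have h3 : ((‖P‖ + 1 : ℝ) : ℂ) • (1 : Matrix n n ℂ) - P = (algebraMap ℝ _ ‖P‖ - P) + 1 := by
      rw [Algebra.algebraMap_eq_smul_one]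
      push_cast
      rw [add_smul, one_smul]
      have : ((‖P‖ : ℝ) : ℂ) • (1 : Matrix n n ℂ) = ‖P‖ • (1 : Matrix n n ℂ) := by
        ext i j; simp
      rw [this]; abel
    rw [h3]
    exact add_nonneg (sub_nonneg.2 h1) zero_le_one
  obtain ⟨B, hB⟩ := CStarAlgebra.nonneg_iff_eq_star_mul_self.1 h2
  exact ⟨B, hB⟩

end shift

/-- Completing a transposition-invariant Kraus map to a channel with a flag state. -/
theorem exists_channel {ι n : Type*} [Fintype ι] [Fintype n] [DecidableEq n] (o : n)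
    (w : ι → ℕ) (K : ι → Matrix n n ℤ) (h : PTSym w K) :
    ∃ (c : ℂ) (g : Matrix n n ℂ → ℂ), c ≠ 0 ∧
      IsChannel (fun X => c • kmap w K X + g X • Matrix.single o o (1 : ℂ)) ∧
      IsPPT (fun X => c • kmap w K X + g X • Matrix.single o o (1 : ℂ)) := by
  set P : Matrix n n ℂ := ∑ i, (w i : ℂ) • ((cz (K i))ᴴ * cz (K i)) with hPdef
  have hP : P.PosSemidef := posSemidef_sum _ fun i _ =>
    (posSemidef_conjTranspose_mul_self _).smul (by positivity)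
  obtain ⟨N, hN, B, hB⟩ := exists_shift_factor P hP.isHermitian
  have hN0 : (N : ℂ) ≠ 0 := by exact_mod_cast hN.ne'
  have hc : (0 : ℂ) ≤ (N : ℂ)⁻¹ := by
    rw [← Complex.ofReal_inv]; exact_mod_cast (inv_pos.2 hN).le
  have hflag : IsCompletelyPositive fun X : Matrix n n ℂ =>
      X.trace • Matrix.single o o (1 : ℂ) := by
    have : (fun X : Matrix n n ℂ => X.trace • Matrix.single o o (1 : ℂ)) = fun X =>
        ∑ i, Matrix.single o i (1 : ℂ) * X * (Matrix.single o i (1 : ℂ))ᴴ := by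
      funext X
      simp only [conjTranspose_single, star_one, single_mul_mul_single, Matrix.trace, diag,
        Finset.sum_smul, smul_single, one_mul, mul_one, smul_eq_mul]
    rw [this]
    exact isCP_sum _ _ fun i _ => isCP_ad _
  have hcp : IsCompletelyPositive fun X : Matrix n n ℂ => (N : ℂ)⁻¹ • kmap w K X +
      ((N : ℂ)⁻¹ * (B * X * Bᴴ).trace) • Matrix.single o o (1 : ℂ) := by
    refine isCP_add (isCP_smul (kmap_cp w K) hc) ?_
    simpa only [mul_smul] using isCP_smul (isCP_comp (isCP_ad B) hflag) hc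
  refine ⟨(N : ℂ)⁻¹, fun X => (N : ℂ)⁻¹ * (B * X * Bᴴ).trace, inv_ne_zero hN0,
    ⟨?_, hcp, ?_⟩, hcp, ?_⟩
  · constructor
    · intro X Y
      simp only [(kmap_linear w K).map_add, Matrix.mul_add, Matrix.add_mul, trace_add, mul_add,
        add_smul, smul_add]
      abel
    · intro a X
      simp only [(kmap_linear w K).map_smul, Matrix.mul_smul, Matrix.smul_mul, trace_smul,
        smul_add, smul_smul, smul_eq_mul]
      rw [mul_comm a (N : ℂ)⁻¹, mul_left_comm a]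
  · intro X
    have h1 : (kmap w K X).trace = (P * X).trace := by
      simp only [kmap, hPdef, trace_sum, trace_smul, Matrix.sum_mul, Matrix.smul_mul,
        cz_conjTranspose]
      refine Finset.sum_congr rfl fun i _ => ?_
      rw [trace_mul_cycle]
    have h2 : (B * X * Bᴴ).trace = N * X.trace - (P * X).trace := by
      rw [trace_mul_cycle, ← hB, Matrix.sub_mul, trace_sub, Matrix.smul_mul, Matrix.one_mul,
        trace_smul, smul_eq_mul]
    simp only [trace_add, trace_smul, h1, h2, trace_single_eq_same, smul_eq_mul]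
    field_simp
    ring
  · simpa only [transpose_add, transpose_smul, h.transpose_kmap, transpose_single] using hcp

section main
variable {ι κ : Type*} [Fintype ι] [Fintype κ]
  (w₁ : ι → ℕ) (K₁ : ι → Matrix (Fin 10) (Fin 10) ℤ)
  (w₂ : κ → ℕ) (K₂ : κ → Matrix (Fin 10) (Fin 10) ℤ)
  (Z : Set ((Fin 10 → ℂ) × (Fin 10 → ℂ)))

theorem choi_ker (hK : ∀ z ∈ Z, ∀ i j, z.2 ⬝ᵥ (cz (K₂ j * K₁ i) *ᵥ z.1) = 0) :
    ∀ z ∈ Z, ∀ q, ∑ p : Fin 10 × Fin 10,
      z.1 p.1 * z.2 p.2 * choiMatrix (kmap w₂ K₂ ∘ kmap w₁ K₁) p q = 0 := by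
  intro z hz q
  rw [kmap_comp]
  simp only [choi_kmap, Finset.mul_sum]
  rw [Finset.sum_comm]
  refine Finset.sum_eq_zero fun x _ => ?_
  have := hK z hz x.2 x.1
  simp only [dotProduct, mulVec, cz_apply, Finset.mul_sum] at this
  rw [Finset.sum_comm] at this
  rw [Fintype.sum_prod_type]
  calc _ = ((w₂ x.1 * w₁ x.2 : ℕ) : ℂ) * ((K₂ x.1 * K₁ x.2) q.2 q.1 : ℤ) *
        ∑ a, ∑ b, z.2 b * ((((K₂ x.1 * K₁ x.2) b a : ℤ) : ℂ) * z.1 a) := by
        simp only [Finset.mul_sum]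
        exact Finset.sum_congr rfl fun _ _ => Finset.sum_congr rfl fun _ _ => by ring
    _ = 0 := by rw [this, mul_zero]

theorem choi_ne (hne : ∃ i j, w₁ i ≠ 0 ∧ w₂ j ≠ 0 ∧ K₂ j * K₁ i ≠ 0) :
    choiMatrix (kmap w₂ K₂ ∘ kmap w₁ K₁) ≠ 0 := by
  obtain ⟨i, j, h1, h2, h3⟩ := hne
  intro h
  apply h3
  ext a b
  have := congrFun (congrFun h (b, a)) (b, a)
  rw [kmap_comp, choi_kmap] at this
  have h4 : ∑ x : κ × ι, ((w₂ x.1 * w₁ x.2 : ℕ) : ℤ) * (K₂ x.1 * K₁ x.2) a b *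
      (K₂ x.1 * K₁ x.2) a b = 0 := by
    have h5 : ((∑ x : κ × ι, ((w₂ x.1 * w₁ x.2 : ℕ) : ℤ) * (K₂ x.1 * K₁ x.2) a b *
      (K₂ x.1 * K₁ x.2) a b : ℤ) : ℂ) = 0 := by
      simpa using this
    exact_mod_cast h5
  rw [Finset.sum_eq_zero_iff_of_nonneg fun x _ => by
    rw [mul_assoc]; exact mul_nonneg (by positivity) (mul_self_nonneg _)] at h4
  have h6 := h4 (j, i) (Finset.mem_univ _)
  simpa [h1, h2] using h6

theorem result₂
    (h₁ : PTSym w₁ K₁) (h₂ : PTSym w₂ K₂)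
    (hZ : ∀ u v : Fin 10 → ℂ, (∀ z ∈ Z, (z.1 ⬝ᵥ u) * (z.2 ⬝ᵥ v) = 0) → u = 0 ∨ v = 0)
    (hK : ∀ z ∈ Z, ∀ i j, z.2 ⬝ᵥ (cz (K₂ j * K₁ i) *ᵥ z.1) = 0)
    (hne : ∃ i j, w₁ i ≠ 0 ∧ w₂ j ≠ 0 ∧ K₂ j * K₁ i ≠ 0) :
    ∃ Φ₁ Φ₂ : Matrix (Fin 10) (Fin 10) ℂ → Matrix (Fin 10) (Fin 10) ℂ,
      IsLinearMap ℂ Φ₁ ∧ IsLinearMap ℂ Φ₂ ∧ IsPPT Φ₁ ∧ IsPPT Φ₂ ∧
      choiMatrix (Φ₂ ∘ Φ₁) ≠ 0 ∧
      (∀ u v : Fin 10 → ℂ, (∃ w, (choiMatrix (Φ₂ ∘ Φ₁)).mulVec w = fun p => u p.1 * v p.2) →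
        u = 0 ∨ v = 0) ∧
      ¬ IsEntanglementBreaking (Φ₂ ∘ Φ₁) := by
  refine ⟨kmap w₁ K₁, kmap w₂ K₂, kmap_linear _ _, kmap_linear _ _, h₁.isPPT, h₂.isPPT,
    choi_ne _ _ _ _ hne, range_no_product Z hZ _ (choi_ker _ _ _ _ Z hK), fun hEB => ?_⟩
  let v : Fin 10 × Fin 10 → ℂ := fun p => if p.1 = p.2 then 1 else 0
  have hs := hEB 10 _ (posSemidef_vecMulVec_self_star v)
  have he : blockwise (kmap w₂ K₂ ∘ kmap w₁ K₁) (vecMulVec v (star v)) =
      choiMatrix (kmap w₂ K₂ ∘ kmap w₁ K₁) := by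
    ext p q
    have : block (vecMulVec v (star v)) p.1 q.1 = Matrix.single p.1 q.1 (1 : ℂ) := by
      ext a b
      simp only [block, vecMulVec, v, of_apply, Pi.star_apply, single_apply]
      by_cases h1 : p.1 = a <;> by_cases h2 : q.1 = b <;> simp [h1, h2]
    simp only [blockwise, choiMatrix, of_apply, this]
  rw [he] at hs
  exact choi_ne _ _ _ _ hne (sep_eq_zero Z hZ _ hs (choi_ker _ _ _ _ Z hK))

def e₁ (a : Fin 10) : Fin 21 := ⟨a, by omega⟩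
def e₂ (a : Fin 10) : Fin 21 := ⟨a + 10, by omega⟩
def J₁ : Matrix (Fin 21) (Fin 10) ℤ := Matrix.of fun i a => if i = e₁ a then 1 else 0
def J₂ : Matrix (Fin 21) (Fin 10) ℤ := Matrix.of fun i a => if i = e₂ a then 1 else 0

theorem J₁₁ : J₁ᵀ * J₁ = 1 := by decide +kernel
theorem J₂₂ : J₂ᵀ * J₂ = 1 := by decide +kernel
theorem J₁₂ : J₁ᵀ * J₂ = 0 := by decide +kernel
theorem J₂₁ : J₂ᵀ * J₁ = 0 := by decide +kernel

theorem J₁_conj (X : Matrix (Fin 21) (Fin 21) ℂ) :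
    (cz J₁)ᵀ * X * cz J₁ = X.submatrix e₁ e₁ := by
  ext a b
  simp [Matrix.mul_apply, J₁, apply_ite (Int.cast : ℤ → ℂ)]

theorem J₂_conj (X : Matrix (Fin 21) (Fin 21) ℂ) :
    (cz J₂)ᵀ * X * cz J₂ = X.submatrix e₂ e₂ := by
  ext a b
  simp [Matrix.mul_apply, J₂, apply_ite (Int.cast : ℤ → ℂ)]

theorem result₁
    (h₁ : PTSym w₁ K₁) (h₂ : PTSym w₂ K₂)
    (hZ : ∀ u v : Fin 10 → ℂ, (∀ z ∈ Z, (z.1 ⬝ᵥ u) * (z.2 ⬝ᵥ v) = 0) → u = 0 ∨ v = 0)
    (hK : ∀ z ∈ Z, ∀ i j, z.2 ⬝ᵥ (cz (K₂ j * K₁ i) *ᵥ z.1) = 0)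
    (hne : ∃ i j, w₁ i ≠ 0 ∧ w₂ j ≠ 0 ∧ K₂ j * K₁ i ≠ 0) :
    ∃ Θ : Matrix (Fin 21) (Fin 21) ℂ → Matrix (Fin 21) (Fin 21) ℂ,
      IsChannel Θ ∧ IsPPT Θ ∧ ¬ IsEntanglementBreaking (Θ ∘ Θ) := by
  let w : ι ⊕ κ → ℕ := Sum.elim w₁ w₂
  let K : ι ⊕ κ → Matrix (Fin 21) (Fin 21) ℤ :=
    Sum.elim (fun i => J₂ * K₁ i * J₁ᵀ) fun j => J₁ * K₂ j * J₂ᵀ
  have hw : PTSym w K := by
    intro a b s t
    simp only [Fintype.sum_sum_type, w, K, Sum.elim_inl, Sum.elim_inr]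
    rw [(h₁.mul_left J₂).mul_right J₁ᵀ a b s t, (h₂.mul_left J₁).mul_right J₂ᵀ a b s t]
  obtain ⟨c, g, hc, hch, hppt⟩ := exists_channel (20 : Fin 21) w K hw
  refine ⟨_, hch, hppt, fun hEB => ?_⟩
  set Θ : Matrix (Fin 21) (Fin 21) ℂ → Matrix (Fin 21) (Fin 21) ℂ :=
    fun X => c • kmap w K X + g X • Matrix.single 20 20 (1 : ℂ) with hΘ
  have hz : cz (0 : Matrix (Fin 10) (Fin 10) ℤ) = 0 := by ext; simp
  have ho : cz (1 : Matrix (Fin 10) (Fin 10) ℤ) = 1 := by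
    ext a b; simp [Matrix.one_apply, apply_ite (Int.cast : ℤ → ℂ)]
  have c11 : (cz J₁)ᵀ * cz J₁ = 1 := by rw [← cz_transpose, ← cz_mul, J₁₁, ho]
  have c22 : (cz J₂)ᵀ * cz J₂ = 1 := by rw [← cz_transpose, ← cz_mul, J₂₂, ho]
  have c12 : (cz J₁)ᵀ * cz J₂ = 0 := by rw [← cz_transpose, ← cz_mul, J₁₂, hz]
  have c21 : (cz J₂)ᵀ * cz J₁ = 0 := by rw [← cz_transpose, ← cz_mul, J₂₁, hz]
  have hk : ∀ X, kmap w K X = cz J₂ * kmap w₁ K₁ (X.submatrix e₁ e₁) * (cz J₂)ᵀ +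
      cz J₁ * kmap w₂ K₂ (X.submatrix e₂ e₂) * (cz J₁)ᵀ := by
    intro X
    simp only [kmap, Fintype.sum_sum_type, w, K, Sum.elim_inl, Sum.elim_inr, ← J₁_conj,
      ← J₂_conj, cz_mul, cz_transpose, transpose_mul, transpose_transpose, Matrix.mul_sum,
      Matrix.sum_mul, Matrix.mul_smul, Matrix.smul_mul, Matrix.mul_assoc]
  have f1 : (Matrix.single (20 : Fin 21) (20 : Fin 21) (1 : ℂ)).submatrix e₁ e₁ = 0 := by
    ext a b
    have : (20 : Fin 21) ≠ e₁ a := by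
      intro h; have := congrArg Fin.val h; simp [e₁] at this; omega
    simp [this]
  have f2 : (Matrix.single (20 : Fin 21) (20 : Fin 21) (1 : ℂ)).submatrix e₂ e₂ = 0 := by
    ext a b
    have : (20 : Fin 21) ≠ e₂ a := by
      intro h; have := congrArg Fin.val h; simp [e₂] at this; omega
    simp [this]
  have t1 : ∀ X, (Θ X).submatrix e₁ e₁ = c • kmap w₂ K₂ (X.submatrix e₂ e₂) := by
    intro X
    have : (kmap w K X).submatrix e₁ e₁ = kmap w₂ K₂ (X.submatrix e₂ e₂) := by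
      rw [← J₁_conj, hk]
      simp only [Matrix.mul_add, Matrix.add_mul, ← Matrix.mul_assoc, c11, c12, Matrix.zero_mul,
        Matrix.one_mul, zero_add]
      rw [Matrix.mul_assoc, c11, Matrix.mul_one]
    rw [hΘ]
    simp only [submatrix_add, submatrix_smul, Pi.add_apply, Pi.smul_apply, this, f1, smul_zero,
      add_zero]
  have t2 : ∀ X, (Θ X).submatrix e₂ e₂ = c • kmap w₁ K₁ (X.submatrix e₁ e₁) := by
    intro X
    have : (kmap w K X).submatrix e₂ e₂ = kmap w₁ K₁ (X.submatrix e₁ e₁) := by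
      rw [← J₂_conj, hk]
      simp only [Matrix.mul_add, Matrix.add_mul, ← Matrix.mul_assoc, c22, c21, Matrix.zero_mul,
        Matrix.one_mul, add_zero]
      rw [Matrix.mul_assoc, c22, Matrix.mul_one]
    rw [hΘ]
    simp only [submatrix_add, submatrix_smul, Pi.add_apply, Pi.smul_apply, this, f2, smul_zero,
      add_zero]
  let v : Fin 10 × Fin 21 → ℂ := fun p => if p.2 = e₁ p.1 then 1 else 0
  obtain ⟨r, A, B, hA, hB, hs⟩ := hEB 10 _ (posSemidef_vecMulVec_self_star v)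
  have hsep : IsSeparable ((c * c) • choiMatrix (kmap w₂ K₂ ∘ kmap w₁ K₁)) := by
    refine ⟨r, A, fun i => (B i).submatrix e₁ e₁, hA, fun i => (hB i).submatrix _, ?_⟩
    ext p q
    have h1 := congrFun (congrFun hs (p.1, e₁ p.2)) (q.1, e₁ q.2)
    have h2 : (block (vecMulVec v (star v)) p.1 q.1).submatrix e₁ e₁ =
        Matrix.single p.1 q.1 (1 : ℂ) := by
      ext a b
      have inj : ∀ x y : Fin 10, e₁ x = e₁ y ↔ y = x := by
        intro x y; simp only [e₁, Fin.ext_iff]; omega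
      simp only [block, vecMulVec, v, of_apply, Pi.star_apply, single_apply, submatrix_apply, inj]
      by_cases h1 : p.1 = a <;> by_cases h2 : q.1 = b <;> simp [h1, h2]
    have h3 := congrFun (congrFun (t1 (Θ (block (vecMulVec v (star v)) p.1 q.1))) p.2) q.2
    rw [t2, h2, (kmap_linear w₂ K₂).map_smul, smul_smul] at h3
    simp only [blockwise, of_apply, Function.comp, Matrix.sum_apply, kroneckerMap_apply] at h1
    simp only [submatrix_apply] at h3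
    simp only [choiMatrix, Matrix.smul_apply, of_apply, Function.comp, Matrix.sum_apply,
      kroneckerMap_apply, submatrix_apply]
    rw [← h1, h3]
    rfl
  have := sep_eq_zero Z hZ _ hsep fun z hz q => by
    have h := choi_ker w₁ K₁ w₂ K₂ Z hK z hz q
    simp only [Matrix.smul_apply, smul_eq_mul]
    calc _ = c * c * ∑ p : Fin 10 × Fin 10,
          z.1 p.1 * z.2 p.2 * choiMatrix (kmap w₂ K₂ ∘ kmap w₁ K₁) p q := by
          rw [Finset.mul_sum]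
          exact Finset.sum_congr rfl fun _ _ => by ring
      _ = 0 := by rw [h, mul_zero]
  rw [smul_eq_zero] at this
  rcases this with h | h
  · exact hc (mul_self_eq_zero.1 h)
  · exact choi_ne _ _ _ _ hne h

end main

end Crest.Agent.R345
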