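import Mathlib

/-! A kernel-checkable test that any `n` rows of a family are independent, run on residues. -/

set_option autoImplicit false

namespace Crest.Agent.R345

/-- entrywise `a * x + b * y` modulo `p`, missing entries read as `0` -/
def comb (p a b : ℕ) : List ℕ → List ℕ → List ℕ
  | [], ys => ys.map fun y => (b * y) % p
  | x :: xs, [] => ((a * x) % p) :: comb p a b xs []
  | x :: xs, y :: ys => ((a * x + b * y) % p) :: comb p a b xs ys

def checkAux (p : ℕ) (rec : List (List ℕ) → Bool) (n : ℕ) : List (List ℕ) → Bool
  | [] => true
  | r :: rest =>
    if rest.length < n then true else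
      (r.headD 0 % p != 0) &&
        rec (rest.map fun s => comb p (r.headD 0) (p - s.headD 0 % p) s.tail r.tail) &&
        checkAux p rec n rest

def check (p : ℕ) : ℕ → List (List ℕ) → Bool
  | 0 => fun _ => true
  | n + 1 => checkAux p (check p n) n

theorem comb_getD {F : Type*} [CommRing F] (p : ℕ) [CharP F p] (a b : ℕ) :
    ∀ (xs ys : List ℕ) (j : ℕ),
      (((comb p a b xs ys).getD j 0 : ℕ) : F) = a * (xs.getD j 0 : ℕ) + b * (ys.getD j 0 : ℕ)
  | [], ys, j => by
    simp only [comb, List.getD_eq_getElem?_getD, List.getElem?_map, List.getElem?_nil]
    cases ys[j]? <;> simp [CharP.natCast_eq_natCast_mod F p (b * _) |>.symm]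
  | x :: xs, [], j => by
    cases j with
    | zero => simp [comb, CharP.natCast_eq_natCast_mod F p (a * x) |>.symm]
    | succ j =>
      have := comb_getD (F := F) p a b xs [] j
      simpa [comb] using this
  | x :: xs, y :: ys, j => by
    cases j with
    | zero => simp [comb, CharP.natCast_eq_natCast_mod F p (a * x + b * y) |>.symm]
    | succ j =>
      have := comb_getD (F := F) p a b xs ys j
      simpa [comb] using this

theorem getD_tail (r : List ℕ) (j : ℕ) : r.tail.getD j 0 = r.getD (j + 1) 0 := by
  cases r <;> simp

theorem getD_zero (r : List ℕ) : r.getD 0 0 = r.headD 0 := by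
  cases r <;> simp

open Classical in
theorem check_sound {ι R F : Type*} [CommRing R] [CommRing F] (p : ℕ) (hp : 0 < p) [CharP F p]
    (π : R →+* F) (φ : R →+* ℂ) (hφ : Function.Injective φ) :
    ∀ (n : ℕ) (L : List ι) (row : ι → Fin n → R) (res : List (List ℕ)),
      List.Forall₂ (fun i r => ∀ j : Fin n, π (row i j) = ((r.getD j 0 : ℕ) : F)) L res →
      check p n res = true →
      ∀ u : Fin n → ℂ, n ≤ L.countP (fun i => ∑ j, φ (row i j) * u j = 0) → u = 0 := by
  intro n
  induction n with
  | zero => intro L row res _ _ u _; funext j; exact j.elim0
  | succ n ih =>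
    intro L row res hrel
    induction hrel with
    | nil => intro _ u hu; simp at hu
    | @cons i r L rest hi hrest ih2 =>
      intro hc u hu
      simp only [check, checkAux] at hc ih2
      have hlen : L.length = rest.length := hrest.length_eq
      split_ifs at hc with hlt
      · exfalso
        have := List.countP_le_length (p := fun i => decide (∑ j, φ (row i j) * u j = 0))
          (l := i :: L)
        simp only [List.length_cons] at this
        omega
      simp only [Bool.and_eq_true, bne_iff_ne, ne_eq] at hc
      obtain ⟨⟨h0, h1⟩, h2⟩ := hc
      by_cases hz : ∑ j, φ (row i j) * u j = 0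
      · have hpiv : φ (row i 0) ≠ 0 := by
          intro h
          have h' : row i 0 = 0 := hφ (by simpa using h)
          have := hi 0
          rw [h', map_zero] at this
          simp only [Fin.val_zero, getD_zero] at this
          apply h0
          exact Nat.mod_eq_zero_of_dvd ((CharP.cast_eq_zero_iff F p _).1 this.symm)
        rw [List.countP_cons_of_pos (by simpa using hz)] at hu
        have key := ih L (fun k j => row i 0 * row k j.succ - row k 0 * row i j.succ) _ ?_ h1
          (fun j => u j.succ) ?_
        · have hu0 : u 0 = 0 := by
            rw [Fin.sum_univ_succ] at hz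
            have : ∀ j : Fin n, u j.succ = 0 := fun j => congrFun key j
            simp only [this, mul_zero, Finset.sum_const_zero, add_zero] at hz
            exact (mul_eq_zero.1 hz).resolve_left hpiv
          funext j
          refine Fin.cases hu0 (fun j => congrFun key j) j
        · rw [List.forall₂_map_right_iff]
          refine hrest.imp ?_
          intro k s hk j
          rw [comb_getD (F := F), map_sub, map_mul, map_mul, hi, hi, hk, hk, getD_tail, getD_tail,
            Nat.cast_sub (Nat.mod_lt _ hp).le, ← CharP.natCast_eq_natCast_mod F p]
          simp only [Fin.val_zero, getD_zero, Fin.val_succ, CharP.cast_eq_zero]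
          ring
        · refine le_trans (by omega : n ≤ L.countP (fun i => ∑ j, φ (row i j) * u j = 0)) ?_
          apply List.countP_mono_left
          intro k _ hk
          simp only [decide_eq_true_eq] at hk ⊢
          rw [Fin.sum_univ_succ] at hz hk
          simp only [map_sub, map_mul, sub_mul, Finset.sum_sub_distrib, mul_assoc,
            ← Finset.mul_sum]
          linear_combination φ (row i 0) * hk - φ (row k 0) * hz
      · rw [List.countP_cons_of_neg (by simpa using hz)] at hu
        exact ih2 h2 u hu

end Crest.Agent.R345
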