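import Mathlib

/-! Roots in the algebraic integers with prescribed residue. -/

set_option autoImplicit false

namespace Crest.Agent.R345

open Polynomial

abbrev Oz : Type := integralClosure ℤ ℂ

theorem exists_root_residue {F : Type*} [CommRing F] [IsDomain F] (π : Oz →+* F) :
    ∀ (n : ℕ) (g : Oz[X]), g.Monic → g.natDegree = n → ∀ r : Oz, π (g.eval r) = 0 →
      ∃ θ : Oz, g.eval θ = 0 ∧ π θ = π r := by
  intro n
  induction n with
  | zero =>
    intro g hg hn r hr
    rw [hg.natDegree_eq_zero] at hn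
    simp [hn] at hr
  | succ n ih =>
    intro g hg hn r hr
    have hdeg : (g.map (algebraMap Oz ℂ)).degree ≠ 0 := by
      rw [hg.degree_map, degree_eq_natDegree hg.ne_zero, hn]
      exact_mod_cast Nat.succ_ne_zero n
    obtain ⟨z, hz⟩ := IsAlgClosed.exists_root _ hdeg
    have hz' : IsIntegral Oz z := ⟨g, hg, by rwa [IsRoot, eval_map] at hz⟩
    have hz'' : IsIntegral ℤ z := isIntegral_trans z hz'
    let θ : Oz := ⟨z, hz''⟩
    have hθ : g.IsRoot θ := by
      apply Subtype.val_injective
      have : algebraMap Oz ℂ (g.eval θ) = 0 := by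
        rw [← eval₂_at_apply, ← eval_map]
        exact hz
      exact this
    have hfac := mul_divByMonic_eq_iff_isRoot.2 hθ
    set q := g /ₘ (X - C θ)
    have hq : q.Monic := (monic_X_sub_C θ).of_mul_monic_left (hfac.symm ▸ hg)
    have hqd : q.natDegree = n := by
      have := (monic_X_sub_C θ).natDegree_mul hq
      rw [hfac, hn, natDegree_X_sub_C] at this
      omega
    rw [← hfac, eval_mul, map_mul, mul_eq_zero] at hr
    rcases hr with h | h
    · refine ⟨θ, hθ, ?_⟩
      simp only [eval_sub, eval_X, eval_C, map_sub] at h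
      exact (sub_eq_zero.1 h).symm
    · obtain ⟨θ', h1, h2⟩ := ih q hq hqd r h
      exact ⟨θ', by rw [← hfac, eval_mul, h1, mul_zero], h2⟩

theorem exists_residue_field (p : ℕ) (hp : p.Prime) :
    ∃ Q : Ideal Oz, Q.IsMaximal ∧ CharP (Oz ⧸ Q) p := by
  have hP : (Ideal.span {(p : ℤ)}).IsMaximal :=
    PrincipalIdealRing.isMaximal_of_irreducible (Nat.prime_iff_prime_int.1 hp).irreducible
  obtain ⟨Q, hQ, hc⟩ := Ideal.exists_ideal_over_maximal_of_isIntegral (S := Oz)
    (Ideal.span {(p : ℤ)}) (by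
      rw [(RingHom.injective_iff_ker_eq_bot _).1 (algebraMap ℤ Oz).injective_int]
      exact bot_le)
  refine ⟨Q, hQ, ⟨fun n => ?_⟩⟩
  rw [← map_natCast (Ideal.Quotient.mk Q), Ideal.Quotient.eq_zero_iff_mem,
    ← map_natCast (algebraMap ℤ Oz), ← Ideal.mem_comap, hc, Ideal.mem_span_singleton,
    Int.natCast_dvd_natCast]

end Crest.Agent.R345
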