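import Crest.Agent.R345.Wedge
import Crest.Agent.R345.Roots
import Crest.Agent.R345.Check

/-! The explicit `3 × 5` Kraus family and its fifteen degenerate points. -/

set_option autoImplicit false
set_option linter.unusedSectionVars false
set_option linter.style.longLine false

namespace Crest.Agent.R345

open Crest.Quantum Matrix Polynomial
open scoped ComplexOrder Kronecker

def AA : Fin 6 → Matrix (Fin 5) (Fin 3) ℤ :=
  ![!![27, 51, -35; -64, -112, 80; -32, -56, 40; 5, 5, -5; 0, 0, 0],
    !![80, 128, -96; -50, -68, 43; -64, -112, 80; -16, -16, 16; 78, 156, -117],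
    !![395, 632, -474; -240, -432, 312; -96, -168, 120; -24, -24, 24; -48, -96, 72],
    !![0, 0, 0; -1570, -2826, 2041; -312, -546, 390; -78, -78, 78; -156, -312, 234],
    !![0, 0, 0; 0, 0, 0; -140, -245, 175; 593, 1378, -907; 558, 1273, -837],
    !![0, 0, 0; 0, 0, 0; 36, 83, -57; -15, -30, 21; -66, -143, 99]]

def ww : Fin 6 → ℕ := ![22920744, 1041852, 342888, 36960, 33891, 5643365]

theorem AA_sym : PTSym ww AA := by
  unfold PTSym
  decide +kernel

def fp {R : Type*} [CommRing R] (t : R) : R :=
  t ^ 6 + 42832 * t ^ 5 + (-1776700560) * t ^ 4 + (-25211933856000) * t ^ 3 + 477003154065408000 * t ^ 2 + 805966919822868480000 * t ^ 1 + (-12912319070866715443200000) * t ^ 0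

def Up {R : Type*} [CommRing R] (t : R) : Fin 3 → R :=
  ![821112 * t ^ 5 + 139730932320 * t ^ 4 + (-2207448812966400) * t ^ 3 + (-85051768359195648000) * t ^ 2 + 295036543760484925440000 * t ^ 1 + 5574535083316958094950400000 * t ^ 0,
    3213228 * t ^ 5 + 215642133840 * t ^ 4 + (-4199272630617600) * t ^ 3 + (-99887837247124992000) * t ^ 2 + 618170552376603770880000 * t ^ 1 + 3912791354002361076940800000 * t ^ 0,
    5097060 * t ^ 5 + 393305085360 * t ^ 4 + (-7665478256332800) * t ^ 3 + (-198336218780044800000) * t ^ 2 + 1082180693433218826240000 * t ^ 1 + 9630079298158345637068800000 * t ^ 0]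

def Yp {R : Type*} [CommRing R] (t : R) : Fin 5 → R :=
  ![924251520 * t ^ 5 + 128431613245440 * t ^ 4 + 1529022888447436800 * t ^ 3 + (-128535043338707300352000) * t ^ 2 + (-679094544966023436042240000) * t ^ 1 + 14871217027774752707995238400000 * t ^ 0,
    877226160 * t ^ 5 + (-13481141959680) * t ^ 4 + (-1912767314325984000) * t ^ 3 + 766484776179836928000 * t ^ 2 + (-396766564548920961269760000) * t ^ 1 + 15393576287573951770106265600000 * t ^ 0,
    1565701440 * t ^ 5 + 289967048954880 * t ^ 4 + 1755520027979443200 * t ^ 3 + (-220829359767298689024000) * t ^ 2 + 1450404765733957844336640000 * t ^ 1 + (-18301886777606973378527232000000) * t ^ 0,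
    (-8104617600) * t ^ 5 + (-193838821877760) * t ^ 4 + 12223420769561241600 * t ^ 3 + (-14717417814746836992000) * t ^ 2 + (-2114694227593945019842560000) * t ^ 1 + 13658388722086383859846348800000 * t ^ 0,
    1296390480 * t ^ 5 + 36246599439360 * t ^ 4 + 893679739574342400 * t ^ 3 + (-6501040909801555968000) * t ^ 2 + 1156729540601903986114560000 * t ^ 1 + (-19866007635937342087023820800000) * t ^ 0]

theorem ker_irr (t : ℂ) (h : fp t = 0) (k : Fin 6) : (cz (AA k) *ᵥ Up t) ⬝ᵥ Yp t = 0 := by
  unfold fp at h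
  fin_cases k
  · simp only [AA, Up, Yp, dotProduct, mulVec, cz_apply, Fin.sum_univ_succ]
    simp
    linear_combination (42383878131179520 * t ^ 4 + (-657651100128012288000) * t ^ 3 + (-52322701659324995026944000) * t ^ 2 + 825133138414284078663598080000 * t ^ 1 + (-2339528447516032263213652377600000) * t ^ 0) * h
  · simp only [AA, Up, Yp, dotProduct, mulVec, cz_apply, Fin.sum_univ_succ]
    simp
    linear_combination ((-232187883207321600) * t ^ 4 + (-9466895481949727539200) * t ^ 3 + 103794166312929722916864000 * t ^ 2 + 3049765641335925255224033280000 * t ^ 1 + (-32563031725653239494477873152000000) * t ^ 0) * h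
  · simp only [AA, Up, Yp, dotProduct, mulVec, cz_apply, Fin.sum_univ_succ]
    simp
    linear_combination ((-244724195527372800) * t ^ 4 + (-12541772206267728076800) * t ^ 3 + 409052108545295980732416000 * t ^ 2 + 6520914996758357943747870720000 * t ^ 1 + (-77456778371785175922320080896000000) * t ^ 0) * h
  · simp only [AA, Up, Yp, dotProduct, mulVec, cz_apply, Fin.sum_univ_succ]
    simp
    linear_combination ((-597669499239336000) * t ^ 4 + (-50706773309030079225600) * t ^ 3 + (-16191239207618352554496000) * t ^ 2 + 10905831849969501979286568960000 * t ^ 1 + 253356502417137888067637320089600000 * t ^ 0) * h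
  · simp only [AA, Up, Yp, dotProduct, mulVec, cz_apply, Fin.sum_univ_succ]
    simp
    linear_combination ((-2014143899564016000) * t ^ 4 + (-127134304436986432704000) * t ^ 3 + 1907235403706983404902400000 * t ^ 2 + 15643661650094153130629529600000 * t ^ 1 + 10826983073477180533770289152000000 * t ^ 0) * h
  · simp only [AA, Up, Yp, dotProduct, mulVec, cz_apply, Fin.sum_univ_succ]
    simp
    linear_combination (10775709046200960 * t ^ 4 + 3017470457882354803200 * t ^ 3 + 50721228946490694064128000 * t ^ 2 + 323164572076493610762240000000 * t ^ 1 + 5326476380089261884698945126400000 * t ^ 0) * h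

theorem map_fp {R S : Type*} [CommRing R] [CommRing S] (f : R →+* S) (t : R) :
    f (fp t) = fp (f t) := by
  simp [fp, map_ofNat]

theorem map_Up {R S : Type*} [CommRing R] [CommRing S] (f : R →+* S) (t : R) (j : Fin 3) :
    f (Up t j) = Up (f t) j := by
  fin_cases j <;> simp [Up, map_ofNat]

theorem map_Yp {R S : Type*} [CommRing R] [CommRing S] (f : R →+* S) (t : R) :
    f (Yp t 0) = Yp (f t) 0 := by
  simp [Yp, map_ofNat]

theorem map_mon2 {R S : Type*} [CommRing R] [CommRing S] (f : R →+* S) (u : Fin 3 → R)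
    (j : Fin 6) : f (mon2 u j) = mon2 (fun i => f (u i)) j := by
  fin_cases j <;> simp [mon2]

theorem map_mon3 {R S : Type*} [CommRing R] [CommRing S] (f : R →+* S) (u : Fin 3 → R)
    (j : Fin 10) : f (mon3 u j) = mon3 (fun i => f (u i)) j := by
  fin_cases j <;> simp [mon3]

/-- all images `A u` lie in one hyperplane -/
def Good (u : Fin 3 → ℂ) : Prop := ∃ y : Fin 5 → ℂ, y ≠ 0 ∧ ∀ k, (cz (AA k) *ᵥ u) ⬝ᵥ y = 0

section
variable {F : Type*} [CommRing F] [IsDomain F] [CharP F 205663] (π : Oz →+* F)

theorem ratcase (x : Fin 3 → ℤ) (y : Fin 5 → ℤ) (hy : y ≠ 0) (h : ∀ k, (AA k *ᵥ x) ⬝ᵥ y = 0) :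
    ∃ U : Fin 3 → Oz, (∀ j, π (U j) = (x j : F)) ∧ Good fun j => algebraMap Oz ℂ (U j) := by
  refine ⟨fun j => (x j : Oz), fun j => by simp, fun i => (y i : ℂ), ?_, fun k => ?_⟩
  · intro h0
    apply hy
    funext i
    simpa using congrFun h0 i
  · have := congrArg (Int.cast : ℤ → ℂ) (h k)
    simpa [dotProduct, mulVec] using this

theorem irrcase (r : ℤ) (h : (205663 : ℤ) ∣ fp r) (hy : ¬ (205663 : ℤ) ∣ Yp r 0) :
    ∃ U : Fin 3 → Oz, (∀ j, π (U j) = ((Up r j : ℤ) : F)) ∧
      Good fun j => algebraMap Oz ℂ (U j) := by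
  let g : Oz[X] := X ^ 6 + C 42832 * X ^ 5 + C (-1776700560) * X ^ 4 + C (-25211933856000) * X ^ 3 + C 477003154065408000 * X ^ 2 + C 805966919822868480000 * X ^ 1 + C (-12912319070866715443200000) * X ^ 0
  have hg : g.Monic := by
    simp only [g]
    monicity!
  have hev : ∀ t, g.eval t = fp t := by
    intro t
    simp [g, fp]
  have hr : π (g.eval (r : Oz)) = 0 := by
    rw [hev, map_fp, map_intCast, ← eq_intCast (Int.castRingHom F), ← map_fp, eq_intCast]
    exact (CharP.intCast_eq_zero_iff F 205663 _).2 h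
  obtain ⟨θ, h1, h2⟩ := exists_root_residue π _ g hg rfl r hr
  rw [hev] at h1
  rw [map_intCast] at h2
  refine ⟨Up θ, fun j => ?_, Yp (algebraMap Oz ℂ θ), ?_, fun k => ?_⟩
  · rw [map_Up, h2, ← eq_intCast (Int.castRingHom F), ← map_Up, eq_intCast]
  · intro h0
    have h3 : algebraMap Oz ℂ (Yp θ 0) = 0 := by rw [map_Yp, h0]; rfl
    have h4 : Yp θ 0 = 0 := Subtype.val_injective h3
    have h5 := congrArg π h4
    rw [map_Yp, h2, ← eq_intCast (Int.castRingHom F), ← map_Yp, eq_intCast, map_zero] at h5
    exact hy ((CharP.intCast_eq_zero_iff F 205663 _).1 h5)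
  · simp only [map_Up]
    exact ker_irr _ (by rw [← map_fp, h1, map_zero]) k

def Ubar : Fin 15 → Fin 3 → ℤ :=
  ![![2, 1, 3], ![1, -2, -2], ![1, 3, 5], ![3, 2, 5], ![3, 0, 2], ![4, 5, 10], ![10, 3, 12], ![-7, -15, -26], ![14, 15, 32],
    Up 82812, Up 87706, Up 100160, Up 139146, Up 179295, Up 190701]

theorem exists_points (i : Fin 15) :
    ∃ U : Fin 3 → Oz, (∀ j, π (U j) = (Ubar i j : F)) ∧ Good fun j => algebraMap Oz ℂ (U j) := by
  fin_cases i
  · exact ratcase π ![2, 1, 3] ![1, 0, 0, 0, 0] (by decide) (by decide)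
  · exact ratcase π ![1, -2, -2] ![0, 1, 0, 0, 0] (by decide) (by decide)
  · exact ratcase π ![1, 3, 5] ![0, 0, 1, 0, 0] (by decide) (by decide)
  · exact ratcase π ![3, 2, 5] ![0, 0, 0, 1, 0] (by decide) (by decide)
  · exact ratcase π ![3, 0, 2] ![0, 0, 0, 0, 1] (by decide) (by decide)
  · exact ratcase π ![4, 5, 10] ![-1, -1, 1, -1, 1] (by decide) (by decide)
  · exact ratcase π ![10, 3, 12] ![-12, -39, 51, -36, 43] (by decide) (by decide)
  · exact ratcase π ![-7, -15, -26] ![-24, -39, 59, -30, 35] (by decide) (by decide)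
  · exact ratcase π ![14, 15, 32] ![12, -13, 23, 20, 15] (by decide) (by decide)
  · exact irrcase π 82812 (by decide +kernel) (by decide +kernel)
  · exact irrcase π 87706 (by decide +kernel) (by decide +kernel)
  · exact irrcase π 100160 (by decide +kernel) (by decide +kernel)
  · exact irrcase π 139146 (by decide +kernel) (by decide +kernel)
  · exact irrcase π 179295 (by decide +kernel) (by decide +kernel)
  · exact irrcase π 190701 (by decide +kernel) (by decide +kernel)

theorem cast_res (z : ℤ) : (((z % 205663).toNat : ℕ) : F) = (z : F) := by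
  rw [← Int.cast_natCast, Int.toNat_of_nonneg (Int.emod_nonneg _ (by norm_num))]
  exact (CharP.intCast_eq_intCast_mod F 205663).symm

end

def res2 : List (List ℕ) :=
  (List.finRange 15).map fun i => List.ofFn fun j => (mon2 (Ubar i) j % 205663).toNat
def res3 : List (List ℕ) :=
  (List.finRange 15).map fun i => List.ofFn fun j => (mon3 (Ubar i) j % 205663).toNat

theorem check2 : check 205663 6 res2 = true := by decide +kernel
theorem check3 : check 205663 10 res3 = true := by decide +kernel

theorem length_le_countP {ι : Type*} (P Q : ι → Bool) (h : ∀ i, P i = true ∨ Q i = true) :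
    ∀ L : List ι, L.length ≤ L.countP P + L.countP Q
  | [] => by simp
  | i :: L => by
    have := length_le_countP P Q h L
    rcases h i with h | h <;> simp only [List.countP_cons, h, List.length_cons, if_true] <;> omega

theorem not_covered (u : Fin 6 → ℂ) (v : Fin 10 → ℂ)
    (h : ∀ x, Good x → (mon2 x ⬝ᵥ u) * (mon3 x ⬝ᵥ v) = 0) : u = 0 ∨ v = 0 := by
  classical
  obtain ⟨Q, hQ, hch⟩ := exists_residue_field 205663 (by norm_num)
  have : IsDomain (Oz ⧸ Q) := Ideal.Quotient.isDomain Q
  choose U hU hG using exists_points (Ideal.Quotient.mk Q)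
  have hinj : Function.Injective (algebraMap Oz ℂ) := Subtype.val_injective
  have h2 := check_sound 205663 (by norm_num) (Ideal.Quotient.mk Q) (algebraMap Oz ℂ) hinj 6
    (List.finRange 15) (fun i => mon2 (U i)) res2 (by
      rw [res2, List.forall₂_map_right_iff, List.forall₂_same]
      intro i _ j
      rw [List.getD_eq_getElem _ _ (by simp), List.getElem_ofFn, cast_res, map_mon2,
        ← eq_intCast (Int.castRingHom _), map_mon2]
      simp only [hU, eq_intCast]) check2 u
  have h3 := check_sound 205663 (by norm_num) (Ideal.Quotient.mk Q) (algebraMap Oz ℂ) hinj 10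
    (List.finRange 15) (fun i => mon3 (U i)) res3 (by
      rw [res3, List.forall₂_map_right_iff, List.forall₂_same]
      intro i _ j
      rw [List.getD_eq_getElem _ _ (by simp), List.getElem_ofFn, cast_res, map_mon3,
        ← eq_intCast (Int.castRingHom _), map_mon3]
      simp only [hU, eq_intCast]) check3 v
  have h4 := length_le_countP
    (fun i => decide (∑ j, algebraMap Oz ℂ (mon2 (U i) j) * u j = 0))
    (fun i => decide (∑ j, algebraMap Oz ℂ (mon3 (U i) j) * v j = 0)) (fun i => by
      have := h _ (hG i)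
      simpa only [decide_eq_true_eq, map_mon2, map_mon3, mul_eq_zero, dotProduct] using this)
    (List.finRange 15)
  rw [List.length_finRange] at h4
  by_contra hc
  rw [not_or] at hc
  have h5 := mt h2 hc.1
  have h6 := mt h3 hc.2
  omega

/-- product functionals killing every composed Kraus operator -/
def ZZ : Set ((Fin 10 → ℂ) × (Fin 10 → ℂ)) :=
  {z | ∀ i j, z.2 ⬝ᵥ (cz (K2 AA j * K1 AA i) *ᵥ z.1) = 0}

theorem ZZ_prop (u v : Fin 10 → ℂ) (h : ∀ z ∈ ZZ, (z.1 ⬝ᵥ u) * (z.2 ⬝ᵥ v) = 0) :
    u = 0 ∨ v = 0 := by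
  by_cases hv : v = 0
  · exact Or.inr hv
  left
  obtain ⟨b, hb⟩ := Function.ne_iff.1 hv
  have hpad : ∀ a : Fin 10, 6 ≤ a.val → u a = 0 := by
    intro a ha
    have := h (Pi.single a 1, Pi.single b 1) fun i j => pair_single AA i j a ha _
    simp only [single_dotProduct, one_mul, mul_eq_zero] at this
    exact this.resolve_right hb
  have := not_covered (fun j => u (Fin.castLE (by norm_num) j)) v fun x ⟨y, hy, hx⟩ => by
    have h1 := h (pad2 x, mon3 x) fun i j => by
      rw [pair_eq]
      exact wedge_eq_zero _ _ _ _ _ y hy (hx _) (hx _) (hx _) (hx _) (hx _)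
    rw [← h1]
    congr 1
    simp [dotProduct, Fin.sum_univ_succ, mon2, pad2]
  have h0 := this.resolve_right hv
  funext a
  by_cases ha : 6 ≤ a.val
  · exact hpad a ha
  · exact congrFun h0 ⟨a.val, by omega⟩

theorem K_ne : ∃ (i : Fin 6 × Fin 6) (j : Fin 6 × Fin 6 × Fin 6), ww i.1 * ww i.2 ≠ 0 ∧
    ww j.1 * (ww j.2.1 * ww j.2.2) ≠ 0 ∧ K2 AA j * K1 AA i ≠ 0 := by
  refine ⟨(0, 1), (2, 3, 4), by decide, by decide, fun h => ?_⟩
  have h1 := pair_eq AA (0, 1) (2, 3, 4) ![1, 0, 0] ![1, 0, 0]
  have hz : cz (0 : Matrix (Fin 10) (Fin 10) ℤ) = 0 := by ext; simp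
  rw [h, hz, zero_mulVec, dotProduct_zero] at h1
  simp [dotProduct, mulVec, Fin.sum_univ_succ, wedge2, wedge3, p1, p2, t1, t2, t3, sg, AA] at h1
  norm_num at h1

end Crest.Agent.R345
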