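import Mathlib
import Crest.Prelude.Def_Entanglement

/-! Kraus maps with integer operators, complete positivity, invariance under transposition. -/

set_option autoImplicit false
set_option linter.unusedSectionVars false

namespace Crest.Agent.R345

open Crest.Quantum Matrix
open scoped ComplexOrder Kronecker

section CP
variable {d e f : Type*} [Fintype d] [Fintype e] [Fintype f]
  [DecidableEq d] [DecidableEq e] [DecidableEq f]

theorem isCP_ad (V : Matrix e d ℂ) : IsCompletelyPositive fun X : Matrix d d ℂ => V * X * Vᴴ := by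
  intro k M hM
  have : blockwise (k := Fin k) (fun X : Matrix d d ℂ => V * X * Vᴴ) M =
      ((1 : Matrix (Fin k) (Fin k) ℂ) ⊗ₖ V) * M * ((1 : Matrix (Fin k) (Fin k) ℂ) ⊗ₖ V)ᴴ := by
    ext ⟨s, a⟩ ⟨t, b⟩
    simp [blockwise, block, Matrix.mul_apply, Fintype.sum_prod_type, Matrix.one_apply,
      conjTranspose_apply, apply_ite (star : ℂ → ℂ)]
  rw [this]
  exact hM.mul_mul_conjTranspose_same _

theorem isCP_sum {ι : Type*} (s : Finset ι) (Φ : ι → Matrix d d ℂ → Matrix e e ℂ)
    (h : ∀ i ∈ s, IsCompletelyPositive (Φ i)) :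
    IsCompletelyPositive fun X => ∑ i ∈ s, Φ i X := by
  intro k M hM
  have : blockwise (k := Fin k) (fun X => ∑ i ∈ s, Φ i X) M =
      ∑ i ∈ s, blockwise (k := Fin k) (Φ i) M := by
    ext p q
    simp [blockwise, Matrix.sum_apply]
  rw [this]
  exact posSemidef_sum s fun i hi => h i hi k M hM

theorem isCP_add {Φ Ψ : Matrix d d ℂ → Matrix e e ℂ} (h : IsCompletelyPositive Φ)
    (h' : IsCompletelyPositive Ψ) : IsCompletelyPositive fun X => Φ X + Ψ X := by
  intro k M hM
  have : blockwise (k := Fin k) (fun X => Φ X + Ψ X) M =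
      blockwise (k := Fin k) Φ M + blockwise (k := Fin k) Ψ M := by
    ext p q
    simp [blockwise]
  rw [this]
  exact (h k M hM).add (h' k M hM)

theorem isCP_smul {Φ : Matrix d d ℂ → Matrix e e ℂ} (h : IsCompletelyPositive Φ) {c : ℂ}
    (hc : 0 ≤ c) : IsCompletelyPositive fun X => c • Φ X := by
  intro k M hM
  have : blockwise (k := Fin k) (fun X => c • Φ X) M = c • blockwise (k := Fin k) Φ M := by
    ext p q
    simp [blockwise]
  rw [this]
  exact (h k M hM).smul hc

theorem isCP_comp {Φ : Matrix d d ℂ → Matrix e e ℂ} {Ψ : Matrix e e ℂ → Matrix f f ℂ}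
    (h : IsCompletelyPositive Φ) (h' : IsCompletelyPositive Ψ) :
    IsCompletelyPositive fun X => Ψ (Φ X) := by
  intro k M hM
  exact h' k _ (h k M hM)

end CP

/-- an integer matrix read over `ℂ` -/
def cz {d e : Type*} (A : Matrix e d ℤ) : Matrix e d ℂ := A.map Int.cast

@[simp] theorem cz_apply {d e : Type*} (A : Matrix e d ℤ) (i : e) (j : d) :
    cz A i j = (A i j : ℂ) := rfl

theorem cz_conjTranspose {d e : Type*} (A : Matrix e d ℤ) : (cz A)ᴴ = (cz A)ᵀ := by
  ext i j; simp [conjTranspose_apply]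

theorem cz_mul {d e f : Type*} [Fintype e] (A : Matrix f e ℤ) (B : Matrix e d ℤ) :
    cz (A * B) = cz A * cz B := by
  ext i j; simp [Matrix.mul_apply]

theorem cz_transpose {d e : Type*} (A : Matrix e d ℤ) : cz Aᵀ = (cz A)ᵀ := rfl

section kmap
variable {ι κ d e f d' e' : Type*} [Fintype ι] [Fintype κ] [Fintype d] [Fintype e] [Fintype f]
  [Fintype d'] [Fintype e']

/-- the map with weighted integer Kraus operators -/
noncomputable def kmap (w : ι → ℕ) (K : ι → Matrix e d ℤ) (X : Matrix d d ℂ) : Matrix e e ℂ :=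
  ∑ i, (w i : ℂ) • (cz (K i) * X * (cz (K i))ᵀ)

theorem kmap_cp [DecidableEq d] [DecidableEq e] (w : ι → ℕ) (K : ι → Matrix e d ℤ) :
    IsCompletelyPositive (kmap w K) := by
  refine isCP_sum Finset.univ _ fun i _ => isCP_smul ?_ (by positivity)
  simpa only [cz_conjTranspose] using isCP_ad (cz (K i))

omit [Fintype e] in
theorem kmap_linear (w : ι → ℕ) (K : ι → Matrix e d ℤ) : IsLinearMap ℂ (kmap w K) := by
  constructor
  · intro X Y
    simp [kmap, Matrix.mul_add, Matrix.add_mul, Finset.sum_add_distrib]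
  · intro c X
    simp [kmap, Finset.smul_sum, smul_comm c]

omit [Fintype e] in
theorem kmap_apply (w : ι → ℕ) (K : ι → Matrix e d ℤ) (X : Matrix d d ℂ) (a b : e) :
    kmap w K X a b = ∑ s, ∑ t, ((∑ i, (w i : ℤ) * K i a s * K i b t : ℤ) : ℂ) * X s t := by
  simp only [kmap, Matrix.sum_apply, Matrix.smul_apply, Matrix.mul_apply, cz_apply,
    transpose_apply, smul_eq_mul, Finset.sum_mul, Finset.mul_sum, Int.cast_sum, Int.cast_mul,
    Int.cast_natCast]
  rw [Finset.sum_comm]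
  conv_rhs => rw [Finset.sum_comm]
  refine Finset.sum_congr rfl fun t _ => ?_
  rw [Finset.sum_comm]
  exact Finset.sum_congr rfl fun s _ => Finset.sum_congr rfl fun i _ => by ring

/-- the Choi tensor is symmetric in the two output indices -/
def PTSym (w : ι → ℕ) (K : ι → Matrix e d ℤ) : Prop :=
  ∀ a b s t, ∑ i, (w i : ℤ) * K i a s * K i b t = ∑ i, (w i : ℤ) * K i b s * K i a t

omit [Fintype e] in
theorem PTSym.transpose_kmap {w : ι → ℕ} {K : ι → Matrix e d ℤ} (h : PTSym w K)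
    (X : Matrix d d ℂ) : (kmap w K X)ᵀ = kmap w K X := by
  ext a b
  simp only [transpose_apply, kmap_apply, h a b]

theorem PTSym.isPPT [DecidableEq d] [DecidableEq e] {w : ι → ℕ} {K : ι → Matrix e d ℤ}
    (h : PTSym w K) : IsPPT (kmap w K) := by
  refine ⟨kmap_cp w K, ?_⟩
  have : (fun M => (kmap w K M)ᵀ) = kmap w K := funext h.transpose_kmap
  simpa only [this] using kmap_cp w K

omit [Fintype d] [Fintype e] in
theorem PTSym.transpose {w : ι → ℕ} {K : ι → Matrix e d ℤ} (h : PTSym w K) :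
    PTSym w fun i => (K i)ᵀ := by
  intro s t a b
  simp only [transpose_apply]
  rw [h a b s t]
  exact Finset.sum_congr rfl fun i _ => by ring

omit [Fintype d] [Fintype e] [Fintype d'] [Fintype e'] in
theorem PTSym.kron {w : ι → ℕ} {K : ι → Matrix e d ℤ} {w' : κ → ℕ} {K' : κ → Matrix e' d' ℤ}
    (h : PTSym w K) (h' : PTSym w' K') :
    PTSym (fun p : ι × κ => w p.1 * w' p.2) fun p => K p.1 ⊗ₖ K' p.2 := by
  rintro ⟨a, a'⟩ ⟨b, b'⟩ ⟨s, s'⟩ ⟨t, t'⟩
  have key : ∀ (a b : e) (a' b' : e'),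
      ∑ p : ι × κ, ((w p.1 * w' p.2 : ℕ) : ℤ) * (K p.1 ⊗ₖ K' p.2) (a, a') (s, s') *
        (K p.1 ⊗ₖ K' p.2) (b, b') (t, t') =
      (∑ i, (w i : ℤ) * K i a s * K i b t) * ∑ i, (w' i : ℤ) * K' i a' s' * K' i b' t' := by
    intro a b a' b'
    rw [Finset.sum_mul_sum, Fintype.sum_prod_type]
    refine Finset.sum_congr rfl fun i _ => Finset.sum_congr rfl fun j _ => ?_
    simp only [kroneckerMap_apply, Nat.cast_mul]
    ring
  rw [key, key, h a b, h' a' b']

omit [Fintype d] [Fintype f] in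
theorem PTSym.mul_left {w : ι → ℕ} {K : ι → Matrix e d ℤ} (h : PTSym w K) (W : Matrix f e ℤ) :
    PTSym w fun i => W * K i := by
  intro a b s t
  have key : ∀ a b : f, ∑ i, (w i : ℤ) * (W * K i) a s * (W * K i) b t =
      ∑ x, ∑ y, W a x * W b y * ∑ i, (w i : ℤ) * K i x s * K i y t := by
    intro a b
    simp only [Matrix.mul_apply, Finset.sum_mul, Finset.mul_sum]
    rw [Finset.sum_comm]
    conv_rhs => rw [Finset.sum_comm]
    refine Finset.sum_congr rfl fun y _ => ?_
    rw [Finset.sum_comm]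
    exact Finset.sum_congr rfl fun x _ => Finset.sum_congr rfl fun i _ => by ring
  rw [key, key, Finset.sum_comm]
  refine Finset.sum_congr rfl fun x _ => Finset.sum_congr rfl fun y _ => ?_
  rw [h y x]; ring

omit [Fintype e] [Fintype f] in
theorem PTSym.mul_right {w : ι → ℕ} {K : ι → Matrix e d ℤ} (h : PTSym w K) (V : Matrix d f ℤ) :
    PTSym w fun i => K i * V := by
  have := (h.transpose.mul_left Vᵀ).transpose
  simpa only [transpose_mul, transpose_transpose] using this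

omit [Fintype f] in
theorem kmap_comp (w : ι → ℕ) (K : ι → Matrix e d ℤ) (w' : κ → ℕ) (K' : κ → Matrix f e ℤ) :
    kmap w' K' ∘ kmap w K = kmap (fun p : κ × ι => w' p.1 * w p.2) fun p => K' p.1 * K p.2 := by
  funext X
  simp only [Function.comp, kmap, Fintype.sum_prod_type, Matrix.mul_sum, Matrix.sum_mul,
    Finset.smul_sum, cz_mul, transpose_mul, Matrix.mul_smul, Matrix.smul_mul, smul_smul,
    Nat.cast_mul, Matrix.mul_assoc]

omit [Fintype e] in
theorem choi_kmap [DecidableEq d] (w : ι → ℕ) (K : ι → Matrix e d ℤ) (p q : d × e) :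
    choiMatrix (kmap w K) p q = ∑ i, (w i : ℂ) * (K i p.2 p.1 : ℂ) * (K i q.2 q.1 : ℂ) := by
  simp [choiMatrix, kmap_apply, Matrix.single_apply, ite_and]

end kmap

section Sep
variable {d e : Type*} [Fintype d] [Fintype e] [DecidableEq d] [DecidableEq e]

/-- A separable matrix killed by enough product functionals vanishes. -/
theorem sep_eq_zero (Z : Set ((d → ℂ) × (e → ℂ)))
    (hZ : ∀ (u : d → ℂ) (v : e → ℂ), (∀ z ∈ Z, (z.1 ⬝ᵥ u) * (z.2 ⬝ᵥ v) = 0) → u = 0 ∨ v = 0)
    (N : Matrix (d × e) (d × e) ℂ) (hN : IsSeparable N)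
    (hk : ∀ z ∈ Z, ∀ q, ∑ p : d × e, z.1 p.1 * z.2 p.2 * N p q = 0) : N = 0 := by
  obtain ⟨r, A, B, hA, hB, rfl⟩ := hN
  refine Finset.sum_eq_zero fun i _ => ?_
  have hT : ∀ j, (A j ⊗ₖ B j).PosSemidef := fun j => (hA j).kronecker (hB j)
  have hker : ∀ z ∈ Z, (fun p : d × e => z.1 p.1 * z.2 p.2) ᵥ* (A i ⊗ₖ B i) = 0 := by
    intro z hz
    set x : d × e → ℂ := fun p => z.1 p.1 * z.2 p.2 with hx
    have h0 : x ᵥ* (∑ j, A j ⊗ₖ B j) = 0 := by
      funext q
      simpa [Matrix.vecMul, dotProduct, hx] using hk z hz q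
    have h1 : ∑ j, star (star x) ⬝ᵥ ((A j ⊗ₖ B j) *ᵥ star x) = 0 := by
      rw [← dotProduct_sum, ← Matrix.sum_mulVec, star_star, dotProduct_mulVec, h0, zero_dotProduct]
    rw [Finset.sum_eq_zero_iff_of_nonneg fun j _ => (hT j).dotProduct_mulVec_nonneg _] at h1
    have h2 := ((hT i).dotProduct_mulVec_zero_iff _).1 (h1 i (Finset.mem_univ _))
    have h3 := congrArg star h2
    rw [star_mulVec, star_star, (hT i).isHermitian.eq, star_zero] at h3
    exact h3
  ext ⟨a, b⟩ ⟨s, t⟩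
  rcases hZ (fun a => A i a s) (fun b => B i b t) (fun z hz => by
    have := congrFun (hker z hz) (s, t)
    simp only [Matrix.vecMul, dotProduct, Fintype.sum_prod_type, kroneckerMap_apply,
      Pi.zero_apply] at this
    simp only [dotProduct]
    rw [Finset.sum_mul_sum, ← this]
    exact Finset.sum_congr rfl fun _ _ => Finset.sum_congr rfl fun _ _ => by ring) with h | h
  · simp [congrFun h a]
  · simp [congrFun h b]

theorem range_no_product (Z : Set ((d → ℂ) × (e → ℂ)))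
    (hZ : ∀ (u : d → ℂ) (v : e → ℂ), (∀ z ∈ Z, (z.1 ⬝ᵥ u) * (z.2 ⬝ᵥ v) = 0) → u = 0 ∨ v = 0)
    (N : Matrix (d × e) (d × e) ℂ)
    (hk : ∀ z ∈ Z, ∀ q, ∑ p : d × e, z.1 p.1 * z.2 p.2 * N p q = 0)
    (u : d → ℂ) (v : e → ℂ) (h : ∃ w, N.mulVec w = fun p => u p.1 * v p.2) : u = 0 ∨ v = 0 := by
  obtain ⟨w, hw⟩ := h
  refine hZ u v fun z hz => ?_
  have h0 : (fun p : d × e => z.1 p.1 * z.2 p.2) ᵥ* N = 0 := by
    funext q
    simpa [Matrix.vecMul, dotProduct] using hk z hz q
  have h1 : (fun p : d × e => z.1 p.1 * z.2 p.2) ⬝ᵥ (N.mulVec w) = 0 := by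
    rw [dotProduct_mulVec, h0, zero_dotProduct]
  rw [hw] at h1
  simp only [dotProduct, Fintype.sum_prod_type] at h1 ⊢
  rw [Finset.sum_mul_sum, ← h1]
  exact Finset.sum_congr rfl fun _ _ => Finset.sum_congr rfl fun _ _ => by ring

end Sep

end Crest.Agent.R345
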