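import Crest.Agent.R345.Abstract

/-! The maps `Sym² ℂ³ → Λ² ℂ⁵ → Sym³ ℂ³` built from tensor powers of one Kraus family. -/

set_option autoImplicit false
set_option linter.unusedSectionVars false

namespace Crest.Agent.R345

open Crest.Quantum Matrix
open scoped ComplexOrder Kronecker

def p1 : Fin 10 → Fin 5 := ![0, 0, 0, 0, 1, 1, 1, 2, 2, 3]
def p2 : Fin 10 → Fin 5 := ![1, 2, 3, 4, 2, 3, 4, 3, 4, 4]
def t1 : Fin 10 → Fin 5 := ![2, 1, 1, 1, 0, 0, 0, 0, 0, 0]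
def t2 : Fin 10 → Fin 5 := ![3, 3, 2, 2, 3, 2, 2, 1, 1, 1]
def t3 : Fin 10 → Fin 5 := ![4, 4, 4, 3, 4, 4, 3, 4, 3, 2]
def sg : Fin 10 → ℤ := ![1, -1, 1, -1, 1, -1, 1, 1, -1, 1]
def idx2 : Fin 3 → Fin 3 → Fin 10 := ![![0, 3, 4], ![3, 1, 5], ![4, 5, 2]]
def idx3 : Fin 3 → Fin 3 → Fin 3 → Fin 10 :=
  ![![![0, 3, 8], ![3, 6, 9], ![8, 9, 5]], ![![3, 6, 9], ![6, 1, 4], ![9, 4, 7]], ![![8, 9, 5], ![9, 4, 7], ![5, 7, 2]]]

def ind {α : Type*} [DecidableEq α] (a b : α) : ℤ := if a = b then 1 else 0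

theorem sum_ind {α : Type*} [Fintype α] [DecidableEq α] (b : α) (f : α → ℂ) :
    ∑ a, ((ind a b : ℤ) : ℂ) * f a = f b := by
  simp [ind, apply_ite (Int.cast : ℤ → ℂ)]

def W1 : Matrix (Fin 10) (Fin 5 × Fin 5) ℤ :=
  Matrix.of fun m q => ind q (p1 m, p2 m) - ind q (p2 m, p1 m)
def W2 : Matrix (Fin 10) (Fin 5 × Fin 5 × Fin 5) ℤ :=
  Matrix.of fun m q => sg m * (ind q (t1 m, t2 m, t3 m) - ind q (t1 m, t3 m, t2 m)
    - ind q (t2 m, t1 m, t3 m) + ind q (t2 m, t3 m, t1 m) + ind q (t3 m, t1 m, t2 m)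
    - ind q (t3 m, t2 m, t1 m))
def V1 : Matrix (Fin 3 × Fin 3) (Fin 10) ℤ := Matrix.of fun s n => ind n (idx2 s.1 s.2)
def V2 : Matrix (Fin 3 × Fin 3 × Fin 3) (Fin 10) ℤ :=
  Matrix.of fun s n => ind n (idx3 s.1 s.2.1 s.2.2)

/-- quadratic monomials -/
def mon2 {R : Type*} [CommRing R] (u : Fin 3 → R) : Fin 6 → R :=
  ![u 0 * u 0, u 1 * u 1, u 2 * u 2, u 0 * u 1, u 0 * u 2, u 1 * u 2]
/-- quadratic monomials padded with zeros -/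
def pad2 {R : Type*} [CommRing R] (u : Fin 3 → R) : Fin 10 → R :=
  ![u 0 * u 0, u 1 * u 1, u 2 * u 2, u 0 * u 1, u 0 * u 2, u 1 * u 2, 0, 0, 0, 0]
/-- cubic monomials -/
def mon3 {R : Type*} [CommRing R] (u : Fin 3 → R) : Fin 10 → R :=
  ![u 0 * u 0 * u 0, u 1 * u 1 * u 1, u 2 * u 2 * u 2, u 0 * u 0 * u 1, u 1 * u 1 * u 2, u 0 * u 2 * u 2, u 0 * u 1 * u 1, u 1 * u 2 * u 2, u 0 * u 0 * u 2, u 0 * u 1 * u 2]

theorem V1_pad2 (u : Fin 3 → ℂ) : cz V1 *ᵥ pad2 u = fun s => u s.1 * u s.2 := by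
  funext ⟨s, t⟩
  simp only [mulVec, dotProduct, cz_apply, V1, of_apply, sum_ind]
  fin_cases s <;> fin_cases t <;> simp [idx2, pad2] <;> ring

theorem V2_mon3 (u : Fin 3 → ℂ) : cz V2 *ᵥ mon3 u = fun s => u s.1 * (u s.2.1 * u s.2.2) := by
  funext ⟨s, t, r⟩
  simp only [mulVec, dotProduct, cz_apply, V2, of_apply, sum_ind]
  fin_cases s <;> fin_cases t <;> fin_cases r <;> simp [idx3, mon3] <;> ring

theorem V1_single (a : Fin 10) (ha : 6 ≤ a.val) : cz V1 *ᵥ Pi.single a 1 = 0 := by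
  funext ⟨s, t⟩
  have : ∀ (s t : Fin 3) (a : Fin 10), 6 ≤ a.val → idx2 s t ≠ a := by decide
  simp only [mulVec, dotProduct, cz_apply, V1, of_apply, sum_ind]
  simp [this s t a ha]

theorem kron_mulVec {a b c d : Type*} [Fintype b] [Fintype d] (A : Matrix a b ℤ)
    (B : Matrix c d ℤ) (u : b → ℂ) (v : d → ℂ) :
    (cz (A ⊗ₖ B) *ᵥ fun s => u s.1 * v s.2) = fun s => (cz A *ᵥ u) s.1 * (cz B *ᵥ v) s.2 := by
  funext ⟨s, t⟩
  simp only [mulVec, dotProduct, cz_apply, kroneckerMap_apply, Fintype.sum_prod_type,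
    Finset.sum_mul_sum, Int.cast_mul]
  exact Finset.sum_congr rfl fun _ _ => Finset.sum_congr rfl fun _ _ => by ring

def wedge2 (a b : Fin 5 → ℂ) (m : Fin 10) : ℂ := a (p1 m) * b (p2 m) - a (p2 m) * b (p1 m)
def wedge3 (a b c : Fin 5 → ℂ) (m : Fin 10) : ℂ :=
  (sg m : ℂ) * (a (t1 m) * (b (t2 m) * c (t3 m)) - a (t1 m) * (b (t3 m) * c (t2 m))
    - a (t2 m) * (b (t1 m) * c (t3 m)) + a (t2 m) * (b (t3 m) * c (t1 m))
    + a (t3 m) * (b (t1 m) * c (t2 m)) - a (t3 m) * (b (t2 m) * c (t1 m)))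

theorem W1_mulVec (a b : Fin 5 → ℂ) : (cz W1 *ᵥ fun s => a s.1 * b s.2) = wedge2 a b := by
  funext m
  simp only [mulVec, dotProduct, cz_apply, W1, of_apply, Int.cast_sub, sub_mul,
    Finset.sum_sub_distrib, sum_ind, wedge2]

theorem W2_mulVec (a b c : Fin 5 → ℂ) :
    (cz W2 *ᵥ fun s => a s.1 * (b s.2.1 * c s.2.2)) = wedge3 a b c := by
  funext m
  simp only [mulVec, dotProduct, cz_apply, W2, of_apply, Int.cast_sub, Int.cast_add, Int.cast_mul,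
    mul_assoc, ← Finset.mul_sum, sub_mul, add_mul, Finset.sum_sub_distrib, Finset.sum_add_distrib,
    sum_ind, wedge3]

theorem wedge_det (a b c d e : Fin 5 → ℂ) :
    wedge3 c d e ⬝ᵥ wedge2 a b = (Matrix.of ![a, b, c, d, e]).det := by
  simp [dotProduct, Fin.sum_univ_succ, wedge2, wedge3, p1, p2, t1, t2, t3, sg,
    Matrix.det_succ_row_zero, Fin.succAbove]
  ring

theorem wedge_eq_zero (a b c d e y : Fin 5 → ℂ) (hy : y ≠ 0) (ha : a ⬝ᵥ y = 0) (hb : b ⬝ᵥ y = 0)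
    (hc : c ⬝ᵥ y = 0) (hd : d ⬝ᵥ y = 0) (he : e ⬝ᵥ y = 0) :
    wedge3 c d e ⬝ᵥ wedge2 a b = 0 := by
  rw [wedge_det, ← Matrix.exists_mulVec_eq_zero_iff]
  refine ⟨y, hy, ?_⟩
  funext i
  fin_cases i <;> simpa [mulVec]

section
variable {ι : Type*} [Fintype ι] (w : ι → ℕ) (A : ι → Matrix (Fin 5) (Fin 3) ℤ)

def K1 (i : ι × ι) : Matrix (Fin 10) (Fin 10) ℤ := W1 * (A i.1 ⊗ₖ A i.2) * V1
def K2 (j : ι × ι × ι) : Matrix (Fin 10) (Fin 10) ℤ :=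
  (W2 * (A j.1 ⊗ₖ (A j.2.1 ⊗ₖ A j.2.2)) * V2)ᵀ

theorem K1_sym (h : PTSym w A) : PTSym (fun i : ι × ι => w i.1 * w i.2) (K1 A) :=
  ((h.kron h).mul_left W1).mul_right V1

theorem K2_sym (h : PTSym w A) :
    PTSym (fun j : ι × ι × ι => w j.1 * (w j.2.1 * w j.2.2)) (K2 A) :=
  (((h.kron (h.kron h)).mul_left W2).mul_right V2).transpose

theorem pair_eq (i : ι × ι) (j : ι × ι × ι) (u v : Fin 3 → ℂ) :
    mon3 v ⬝ᵥ (cz (K2 A j * K1 A i) *ᵥ pad2 u) =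
      wedge3 (cz (A j.1) *ᵥ v) (cz (A j.2.1) *ᵥ v) (cz (A j.2.2) *ᵥ v) ⬝ᵥ
        wedge2 (cz (A i.1) *ᵥ u) (cz (A i.2) *ᵥ u) := by
  rw [cz_mul, ← mulVec_mulVec, dotProduct_mulVec, K2, cz_transpose, vecMul_transpose, K1]
  simp only [cz_mul, ← mulVec_mulVec, V1_pad2, V2_mon3]
  rw [kron_mulVec, W1_mulVec, kron_mulVec (A j.1) _ v fun s : Fin 3 × Fin 3 => v s.1 * v s.2,
    kron_mulVec, W2_mulVec]

theorem pair_single (i : ι × ι) (j : ι × ι × ι) (a : Fin 10) (ha : 6 ≤ a.val) (z : Fin 10 → ℂ) :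
    z ⬝ᵥ (cz (K2 A j * K1 A i) *ᵥ Pi.single a 1) = 0 := by
  simp only [K1, cz_mul, ← mulVec_mulVec, V1_single a ha, mulVec_zero, dotProduct_zero]

end

end Crest.Agent.R345
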